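import Vale.Agent.P299.H723.D.Defs

/-!
# P299, part D: tensor sections, torus actions, statements of D4, D5, D6 and of the index theorem
-/

open scoped Manifold ContDiff ComplexOrder Topology
open Vale.Agent.P272.K Vale.Agent.P278.H837

noncomputable section

namespace Vale.Agent.P299.D

/-- components, in the charts, of sections of `(Ω¹)^{⊗p} ⊗ (-mK)` -/
abbrev Ten (n p : ℕ) (X : Type*) [TopologicalSpace X] := Chart n X → Cm n → (Fin p → Fin n) → ℂ

section
variable {n p : ℕ} {X : Type*} [TopologicalSpace X]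

/-- the action of a (Jacobian) matrix `J` on covariant tensors: `(J^* s)_I = Σ_K Π_a J_{K a, I a} s_K` -/
def tenPull {n d p : ℕ} (J : Matrix (Fin n) (Fin d) ℂ) (s : (Fin p → Fin n) → ℂ) :
    (Fin p → Fin d) → ℂ := fun I => ∑ K : Fin p → Fin n, (∏ a, J (K a) (I a)) * s K

variable [ChartedSpace (Cm n) X]

/-- `s` is a holomorphic section of `(Ω¹_X)^{⊗p} ⊗ (-mK_X)`: in the chart `e`, with coordinates
`z_1, …, z_n`, it is `Σ_I (s e)_I dz_{I 1} ⊗ … ⊗ dz_{I p} ⊗ (∂_1 ∧ … ∧ ∂_n)^m`. -/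
structure IsTen (p m : ℕ) (s : Ten n p X) : Prop where
  holo : ∀ e x, At e x → ∀ I, AnalyticAt ℂ (fun z => s e z I) (e x)
  change : ∀ e e' x, At e x → At e' x → ∀ I,
    (jacM e e' x).det ^ m * s e (e x) I = tenPull (jacM e e' x) (s e' (e' x)) I

/-- `s` is not identically zero -/
def TenNZ (s : Ten n p X) : Prop := ∃ e x I, At e x ∧ s e (e x) I ≠ 0

/-- `s` is invariant under the automorphism `g` of `X` -/
def TenInv (m : ℕ) (g : X → X) (s : Ten n p X) : Prop := ∀ e e' x, At e x → At e' (g x) → ∀ I,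
    (jacF g e e' x).det ^ m * s e (e x) I = tenPull (jacF g e e' x) (s e' (e' (g x))) I

end

/-- An action of the torus `ℝ^r / ℤ^r` on `Z` by holomorphic isometries of `w`. -/
structure TorusAct (r n : ℕ) (Z : Type) [TopologicalSpace Z] [ChartedSpace (Cm n) Z]
    (w : FormM n Z) where
  a : (Fin r → ℝ) → Z → Z
  zero : ∀ z, a 0 z = z
  add : ∀ s t z, a (s + t) z = a s (a t z)
  per : ∀ (k : Fin r → ℤ) z, a (fun i => (k i : ℝ)) z = z
  cont : Continuous fun q : (Fin r → ℝ) × Z => a q.1 q.2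
  hol : ∀ t, ContMDiff 𝓘(ℂ, Cm n) 𝓘(ℂ, Cm n) ω (a t)
  iso : ∀ t e z, At e z → pullM (a t) w e (e z) = w e (e z)
  smooth : ∀ (t : Fin r → ℝ) (z : Z) (e e' : Chart n Z), At e z → At e' (a t z) →
    ContDiffAt ℝ ∞ (fun q : (Fin r → ℝ) × Cm n => e' (a q.1 (e.symm q.2))) (t, e z)

/-- **The index theorem (B_T)**: on a compact connected Kähler manifold `Z` with `Ric ≥ 0` and
without holomorphic covariant tensors of positive degree, with a torus `T` acting by holomorphic
isometries, there are, for one `p` and infinitely many `m`, nonzero `T`-invariant holomorphic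
sections of `(Ω¹)^{⊗p} ⊗ (-mK)`. -/
def IndexStatement : Prop :=
  ∀ (n : ℕ) (Z : Type) [TopologicalSpace Z] [T2Space Z] [CompactSpace Z] [ConnectedSpace Z]
    [ChartedSpace (Cm n) Z] [IsManifold 𝓘(ℂ, Cm n) ω Z] (w : FormM n Z),
    IsKahler w → RicNonneg w →
    (∀ p : ℕ, 1 ≤ p → ∀ s : Ten n p Z, IsTen p 0 s → ∀ e z I, At e z → s e (e z) I = 0) →
    ∀ (r : ℕ) (T : TorusAct r n Z w), ∃ p : ℕ, ∀ m₀ : ℕ, ∃ m : ℕ, m₀ ≤ m ∧
      ∃ s : Ten n p Z, IsTen p m s ∧ TenNZ s ∧ ∀ t, TenInv m (T.a t) s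

/-- **D4 (c)**: no covariant holomorphic tensors on `Y 2`. -/
def D4cStatement : Prop :=
  ∀ (n : ℕ) (X : Type) [TopologicalSpace X] [T2Space X] [CompactSpace X] [ConnectedSpace X]
    [ChartedSpace (Cm n) X] [IsManifold 𝓘(ℂ, Cm n) ω X] (w : FormM n X),
    IsKahler w → RicNonneg w → ∀ S : Split n X w, CompactSpace (S.Y 2) →
    ∀ p : ℕ, 1 ≤ p → ∀ s : Ten (S.d 2) p (S.Y 2), IsTen p 0 s → ∀ e y I, At e y → s e (e y) I = 0

/-- **D4 (a, b)**: on `Y 1` there is a nowhere zero section of `-K`, invariant under a finite index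
subgroup of the deck group. -/
def D4aStatement : Prop :=
  ∀ (n : ℕ) (X : Type) [TopologicalSpace X] [T2Space X] [CompactSpace X] [ConnectedSpace X]
    [ChartedSpace (Cm n) X] [IsManifold 𝓘(ℂ, Cm n) ω X] (w : FormM n X),
    IsKahler w → RicNonneg w → ∀ S : Split n X w, CompactSpace (S.Y 1) →
    ∃ s : Ten (S.d 1) 0 (S.Y 1), IsTen 0 1 s ∧ (∀ e y I, At e y → s e (e y) I ≠ 0) ∧
      ∃ G : Subgroup (Deck S.π), G.FiniteIndex ∧ ∀ g ∈ G, TenInv 1 (S.ρ 1 g) s

/-- **D5**: a finitely generated abelian group of holomorphic isometries of the compact simply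
connected Kähler manifold `Z` has a finite index subgroup contained in a torus of holomorphic
isometries. (`F : Z → X` is a holomorphic immersion into the given projective manifold; add what the
proof needs about the positive line bundle.) -/
def D5Statement : Prop :=
  ∀ (n : ℕ) (Z : Type) [TopologicalSpace Z] [T2Space Z] [CompactSpace Z] [ConnectedSpace Z]
    [SimplyConnectedSpace Z] [ChartedSpace (Cm n) Z] [IsManifold 𝓘(ℂ, Cm n) ω Z] (w : FormM n Z),
    IsKahler w →
    ∀ (G : Type) [CommGroup G] [Group.FG G] (ρ : G →* Equiv.Perm Z),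
    (∀ g, ContMDiff 𝓘(ℂ, Cm n) 𝓘(ℂ, Cm n) ω (ρ g)) →
    (∀ g e z, At e z → pullM (ρ g) w e (e z) = w e (e z)) →
    ∃ (r : ℕ) (T : TorusAct r n Z w) (G' : Subgroup G), G'.FiniteIndex ∧
      ∀ g ∈ G', ∃ t, ∀ z, ρ g z = T.a t z

/-- **D6 / Theorem I**: on a compact connected Kähler manifold with `Ric ≥ 0` there are, for one `k`
and infinitely many `m`, nonzero holomorphic sections of `(Ω¹)^{⊗k} ⊗ (-mK)`. -/
def TensorStatement : Prop :=
  ∀ (n : ℕ) (X : Type) [TopologicalSpace X] [T2Space X] [CompactSpace X] [ConnectedSpace X]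
    [ChartedSpace (Cm n) X] [IsManifold 𝓘(ℂ, Cm n) ω X] (w : FormM n X),
    IsKahler w → RicNonneg w → ∃ k : ℕ, ∀ m₀ : ℕ, ∃ m : ℕ, m₀ ≤ m ∧
      ∃ s : Ten n k X, IsTen k m s ∧ TenNZ s

/-- **D6** -/
def D6Statement : Prop :=
  D1Statement → D2Statement → D3Statement → D4aStatement → D4cStatement → D5Statement →
    IndexStatement → TensorStatement

end Vale.Agent.P299.D
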