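import Vale.Agent.P272.K.AMP.Iface
import Vale.Agent.P278.H837.Defs

/-!
# P299, part D (structure of `X` with `Ric ≥ 0`): shared definitions

Vocabulary of `Vale.Agent.P272.K`: manifolds modelled on `Cm n = Fin n → ℂ`, tensors given by their
components in the charts of the atlas (`Chart n X`, `At e x`), metrics `w` by their coefficient
matrices `(w_{i j̄})`, `IsHermitian w`, `IsKahler w`.
-/

open scoped Manifold ContDiff ComplexOrder Topology
open Vale.Agent.P272.K Vale.Agent.P278.H837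

noncomputable section

namespace Vale.Agent.P299.D

/-- `(1,1)`-forms / Hermitian forms in the charts of `X`. -/
abbrev FormM (n : ℕ) (X : Type*) [TopologicalSpace X] :=
  Chart n X → Cm n → Matrix (Fin n) (Fin n) ℂ

/-- vector fields of type `(1,0)` in the charts of `X` -/
abbrev VField (n : ℕ) (X : Type*) [TopologicalSpace X] := Chart n X → Cm n → Cm n

section
variable {d n : ℕ} {N X : Type*} [TopologicalSpace N] [TopologicalSpace X]

/-- The Jacobian matrix `(∂(e' ∘ f ∘ e⁻¹)_p / ∂z_i)` at `y` of a map `f : N → X`. -/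
def jacF (f : N → X) (e : Chart d N) (e' : Chart n X) (y : N) : Matrix (Fin n) (Fin d) ℂ :=
  Matrix.of fun p i => dz i (fun z => e' (f (e.symm z)) p) (e y)

variable [ChartedSpace (Cm n) X]

/-- The pull back of the form `w` by the (holomorphic) map `f`. -/
def pullM (f : N → X) (w : FormM n X) : FormM d N := fun e z =>
  (jacF f e (chartAt (Cm n) (f (e.symm z))) (e.symm z)).transpose *
    w (chartAt (Cm n) (f (e.symm z))) (chartAt (Cm n) (f (e.symm z)) (f (e.symm z))) *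
    (jacF f e (chartAt (Cm n) (f (e.symm z))) (e.symm z)).map (starRingEnd ℂ)

end

section
variable {n : ℕ} {X : Type*} [TopologicalSpace X]

/-- The Ricci form `(- ∂_i ∂_j̄ log det w)` of the Kähler metric `w`. -/
def ric (w : FormM n X) : FormM n X := fun e z =>
  -cHess (fun y => Real.log (w e y).det.re) z

/-- the `(0,1)`-dual of the `(1,0)`-field `v`, conjugated: the `(1,0)`-form `(Σ_j w_{i j̄} conj v^j)_i` -/
def lowerV (w : FormM n X) (v : VField n X) : VField n X := fun e z i =>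
  ∑ j, w e z i j * (starRingEnd ℂ) (v e z j)

variable [ChartedSpace (Cm n) X]

/-- `Ric(w) ≥ 0` -/
def RicNonneg (w : FormM n X) : Prop := ∀ e x, At e x → (ric w e (e x)).PosSemidef

/-- `Ric(w) = 0` -/
def RicZero (w : FormM n X) : Prop := ∀ e x, At e x → ric w e (e x) = 0

/-- `v` is a holomorphic vector field. -/
structure IsHolVF (v : VField n X) : Prop where
  holo : ∀ e x, At e x → AnalyticAt ℂ (v e) (e x)
  change : ∀ e e' x, At e x → At e' x → v e' (e' x) = (jacM e e' x).mulVec (v e (e x))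

/-- `v` is a parallel `(1,0)`-field of the Kähler metric `w`: `v` and the `(1,0)`-form
`w(·, v̄)` are holomorphic. -/
structure IsParVF (w : FormM n X) (v : VField n X) : Prop extends IsHolVF v where
  holo' : ∀ e x, At e x → AnalyticAt ℂ (lowerV w v e) (e x)

/-- `B` is a holomorphic field of endomorphisms of the holomorphic tangent bundle
(`B e z` acts on column vectors). -/
structure IsHolEnd (B : FormM n X) : Prop where
  holo : ∀ e x, At e x → ∀ i j, AnalyticAt ℂ (fun z => B e z i j) (e x)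
  change : ∀ e e' x, At e x → At e' x → jacM e e' x * B e (e x) = B e' (e' x) * jacM e e' x

/-- `w(B u, v̄) = w(u, conj (B v))` -/
def IsSelfAdj (w B : FormM n X) : Prop := ∀ e x, At e x →
  (B e (e x)).transpose * w e (e x) = w e (e x) * (B e (e x)).map (starRingEnd ℂ)

/-- `Ric(B u, v̄) = 0` -/
def RicKills (w B : FormM n X) : Prop := ∀ e x, At e x → (B e (e x)).transpose * ric w e (e x) = 0

end

/-- the standard metric on the charted space `Cm d` -/
def stdM (d : ℕ) : FormM d (Cm d) := fun _ _ => 1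

/-- **Output of D1**: the universal covering `π : M → X` of a compact connected Kähler manifold
`(X, w)` with `Ric(w) ≥ 0` is a product `M = Y 0 × Y 1 × Y 2` of simply connected Kähler manifolds,
`Y 0` is flat `ℂ^(d 0)`, `Y 1` is Ricci flat, the deck group acts diagonally by holomorphic
isometries; there are no parallel `(1,0)`-fields on `Y 1`, `Y 2` and no holomorphic self-adjoint
endomorphism fields killed by `Ric` on `Y 2`. -/
structure Split (n : ℕ) (X : Type) [TopologicalSpace X] [ChartedSpace (Cm n) X] (w : FormM n X) where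
  M : Type
  topM : TopologicalSpace M
  chM : ChartedSpace (Cm n) M
  mfdM : IsManifold 𝓘(ℂ, Cm n) ω M
  t2M : T2Space M
  scM : SimplyConnectedSpace M
  secM : SecondCountableTopology M
  π : M → X
  cov : IsCoveringMap π
  surj : Function.Surjective π
  loc : IsLocalDiffeomorph 𝓘(ℂ, Cm n) 𝓘(ℂ, Cm n) ω π
  gal : ∀ m m' : M, π m = π m' ↔ ∃ γ : Deck π, (γ : M ≃ₜ M) m = m'
  d : Fin 3 → ℕ
  Y : Fin 3 → Type
  topY : ∀ i, TopologicalSpace (Y i)
  chY : ∀ i, ChartedSpace (Cm (d i)) (Y i)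
  mfdY : ∀ i, IsManifold 𝓘(ℂ, Cm (d i)) ω (Y i)
  t2Y : ∀ i, T2Space (Y i)
  scY : ∀ i, SimplyConnectedSpace (Y i)
  secY : ∀ i, SecondCountableTopology (Y i)
  dsum : ∑ i, d i = n
  Φ : M ≃ₜ ((i : Fin 3) → Y i)
  Φ_hol : ∀ i, ContMDiff 𝓘(ℂ, Cm n) 𝓘(ℂ, Cm (d i)) ω (fun m => Φ m i)
  /-- the slices are holomorphic maps `Y i → M` -/
  slice_hol : ∀ i (y : (i : Fin 3) → Y i), ContMDiff 𝓘(ℂ, Cm (d i)) 𝓘(ℂ, Cm n) ω
    (fun z : Y i => Φ.symm (Function.update y i z))
  /-- `dΦ` is injective -/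
  jac_inj : ∀ (e : Chart n M) (m : M) (e' : (i : Fin 3) → Chart (d i) (Y i)), At e m →
    (∀ i, At (e' i) (Φ m i)) → ∀ u : Cm n,
    (∀ i, (jacF (fun m => Φ m i) e (e' i) m).mulVec u = 0) → u = 0
  wY : ∀ i, FormM (d i) (Y i)
  kahY : ∀ i, IsKahler (wY i)
  /-- the metric of `M` is the product metric -/
  prod : ∀ (e : Chart n M) (m : M), At e m →
    pullM π w e (e m) = ∑ i, pullM (fun m => Φ m i) (wY i) e (e m)
  ρ : ∀ i, Deck π →* Equiv.Perm (Y i)
  ρ_hol : ∀ i γ, ContMDiff 𝓘(ℂ, Cm (d i)) 𝓘(ℂ, Cm (d i)) ω (ρ i γ)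
  equiv : ∀ (γ : Deck π) m i, Φ ((γ : M ≃ₜ M) m) i = ρ i γ (Φ m i)
  ρ_iso : ∀ i γ (e : Chart (d i) (Y i)) y, At e y → pullM (ρ i γ) (wY i) e (e y) = wY i e (e y)
  ricY : ∀ i, RicNonneg (wY i)
  ric0 : RicZero (wY 0)
  ric1 : RicZero (wY 1)
  dev : Y 0 ≃ₜ Cm (d 0)
  dev_hol : ContMDiff 𝓘(ℂ, Cm (d 0)) 𝓘(ℂ, Cm (d 0)) ω dev
  dev_symm_hol : ContMDiff 𝓘(ℂ, Cm (d 0)) 𝓘(ℂ, Cm (d 0)) ω dev.symm
  dev_iso : ∀ (e : Chart (d 0) (Y 0)) y, At e y → wY 0 e (e y) = pullM dev (stdM (d 0)) e (e y)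
  /-- parallel fields of `M` are tangent to `Y 0` -/
  noParM : ∀ v : VField n M, IsParVF (pullM π w) v → ∀ i, i ≠ 0 → ∀ (e : Chart n M) (m : M)
    (e' : Chart (d i) (Y i)), At e m → At e' (Φ m i) →
    (jacF (fun m => Φ m i) e e' m).mulVec (v e (e m)) = 0
  noPar : ∀ i, i ≠ 0 → ∀ v : VField (d i) (Y i), IsParVF (wY i) v → ∀ e y, At e y → v e (e y) = 0
  noEnd : ∀ B : FormM (d 2) (Y 2), IsHolEnd B → IsSelfAdj (wY 2) B → RicKills (wY 2) B →
    ∀ e y, At e y → B e (e y) = 0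

attribute [instance] Split.topM Split.chM Split.mfdM Split.t2M Split.scM Split.secM Split.topY
  Split.chY Split.mfdY Split.t2Y Split.scY Split.secY

/-- **D1** -/
def D1Statement : Prop :=
  ∀ (n : ℕ) (X : Type) [TopologicalSpace X] [T2Space X] [CompactSpace X] [ConnectedSpace X]
    [ChartedSpace (Cm n) X] [IsManifold 𝓘(ℂ, Cm n) ω X] (w : FormM n X),
    IsKahler w → RicNonneg w → Nonempty (Split n X w)

/-- **D2**: the factors `Y 1`, `Y 2` are compact. -/
def D2Statement : Prop :=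
  ∀ (n : ℕ) (X : Type) [TopologicalSpace X] [T2Space X] [CompactSpace X] [ConnectedSpace X]
    [ChartedSpace (Cm n) X] [IsManifold 𝓘(ℂ, Cm n) ω X] (w : FormM n X),
    IsKahler w → RicNonneg w → ∀ S : Split n X w, CompactSpace (S.Y 1) ∧ CompactSpace (S.Y 2)

/-- **D3, glued**: a finite index abelian subgroup of the deck group acts on `Y 0 = ℂ^(d 0)` by
translations. -/
def D3Statement : Prop :=
  ∀ (n : ℕ) (X : Type) [TopologicalSpace X] [T2Space X] [CompactSpace X] [ConnectedSpace X]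
    [ChartedSpace (Cm n) X] [IsManifold 𝓘(ℂ, Cm n) ω X] (w : FormM n X),
    IsKahler w → RicNonneg w → ∀ S : Split n X w, CompactSpace (S.Y 1) → CompactSpace (S.Y 2) →
    ∃ G : Subgroup (Deck S.π), G.FiniteIndex ∧ G.FG ∧ (∀ g ∈ G, ∀ h ∈ G, g * h = h * g) ∧
      ∀ g ∈ G, ∃ a : Cm (S.d 0), ∀ y, S.dev (S.ρ 0 g y) = S.dev y + a

end Vale.Agent.P299.D
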